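import Vale.Agent.P322.Top
import Vale.Agent.P322.C12
import Vale.Agent.P322.S01
import Vale.Agent.P322.S23
import Vale.Agent.P322.S4L
import Vale.Agent.P322.S5

/-! The Courtade–Kumar conjecture: for every Boolean function `f` on the cube and every crossover
probability `ε ∈ [0, 1/2]`, the mutual information `I(f X; Y)` is at most `1 - h₂ ε`. -/

namespace Vale.Agent.Results.P322.CourtadeKumar

open Vale.Agent.P322

theorem result (n : ℕ) (f : (Fin n → ℤˣ) → ℤˣ) (ε : ℝ) (h0 : 0 ≤ ε) (h1 : ε ≤ 1 / 2) :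
    mutInf ε f ≤ 1 - h2 ε :=
  ck_all ⟨s0 ser br c1, s1 ser br c1, s2 ser br c1, s3 ser br c2, s4 ser br c2, s5 br⟩
    (low ser br c2 (s0 ser br c1) (s3 ser br c2)) n f ε h0 h1

end Vale.Agent.Results.P322.CourtadeKumar
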