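import Vale.Agent.P322.Main

/-! The Courtade–Kumar inequality at every noise level for odd Boolean functions, for functions
that are antiperiodic in some direction, and for functions admitting a fractional partition of the
cube into subcubes on which they are antipodally odd. -/

namespace Vale.Agent.Results.P322.OddFunctions

open Vale.Agent.P322

theorem result (n : ℕ) (f : (Fin n → ℤˣ) → ℤˣ) (ε : ℝ) (h0 : 0 ≤ ε) (h1 : ε ≤ 1 / 2)
    (hf : (∀ x, f (-x) = -f x) ∨ (∃ a : Finset (Fin n), ∀ x, f (flipOn a x) = -f x) ∨
      OddCover f) :
    mutInf ε f ≤ 1 - h2 ε := by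
  rcases hf with h | ⟨a, h⟩ | h
  · refine ck (cover_of_anti (a := Finset.univ) fun x => ?_) h0 h1
    rw [← h]
    congr 1
    funext i
    simp [flipOn]
  · exact ck (cover_of_anti h) h0 h1
  · exact ck h h0 h1

end Vale.Agent.Results.P322.OddFunctions
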